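import Vale.Agent.P207.N4.H546.FinFr
import Vale.Agent.P207.N4.Geo.MDat
import Vale.Agent.P207.Q.H129.JacFr

/-!
# P207, line N4: rows R17 and R21

* `exists_psi17`: the transfer function if the entropies are equal.
* `const_of_mass`: the final inequality.
-/

open scoped Manifold ContDiff ENNReal Topology Matrix
open Bundle MeasureTheory Set Filter

set_option maxSynthPendingDepth 3
set_option linter.unusedSectionVars false

noncomputable section

namespace Vale.Agent.P207.N4.H546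

variable [Dim]

open Vale.Agent.P255 (RMetric)
open Vale.Agent.P207 Vale.Agent.P207.N4.Q Vale.Agent.P207.Q
open Vale.Agent.P207.Q.H130 (IsUR Km)
open Vale.Agent.P207F (ConstCurvature)

variable {M : Type} [TopologicalSpace M] [ChartedSpace (EV (Dim.m + 1)) M]
  [IsManifold 𝓘(ℝ, EV (Dim.m + 1)) ∞ M]
  [CompactSpace M] [T2Space M] {g : RMetric (EV (Dim.m + 1)) M} [Nonempty (Fr g)]

theorem MDat.ent_cont {Φ : ℝ → Fr g → Fr g} (D : MDat g Φ) (i j : Fin Dim.m) :
    Continuous fun f => D.U f i j :=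
  D.cont.matrix_elem i j

/-- the Jacobian bounds of `t` -/
theorem MDat.jac {φ : ℝ → UT g → UT g} (hφ : IsGeoFlow g φ) (D : MDat g ((horFlows g).Φ 0)) :
    JacUpper φ D.t ∧ JacLower φ D.t := by
  have hΦ := (horFlows g).hor 0
  have hLam : 0 < max D.Lam 1 := lt_max_of_lt_right one_pos
  exact H129.jac_upper_lower hΦ hφ D.ur.pos hLam (fun f i j r => D.ur.ric f r i j)
    (fun f => D.ur.symm hΦ f) D.ur.lo
    (fun f x => (D.hi f x).trans (mul_le_mul_of_nonneg_right (le_max_left _ _)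
      (Finset.sum_nonneg fun i _ => mul_self_nonneg _))) D.t_eq

/-- **R17.** Equality of the entropies: `h > 0`, `∫ t dm = h`, and the transfer function. -/
theorem exists_psi17 [ConnectedSpace M] [MeasurableSpace M] [BorelSpace M] (hN : NegCurvature g)
    {φ : ℝ → UT g → UT g} (hφ : IsGeoFlow g φ) {μ : Measure M} (hμ : IsRiemVol g μ)
    {m : Measure (UT g)} (hm : IsLiouville g μ m)
    (heq : ksEntropy m (φ 1) = topEntropy (φ 1)) (D : MDat g ((horFlows g).Φ 0)) :
    0 < (topEntropy (φ 1)).toReal ∧ ∫ p, D.t p ∂m = (topEntropy (φ 1)).toReal ∧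
      ∃ ψ : UT g → ℝ, Measurable ψ ∧ Integrable ψ m ∧
        ∀ T, ∀ᵐ v ∂m, ψ (φ T v) - ψ v =
          ∫ s in (0 : ℝ)..T, (D.t (φ s v) - (topEntropy (φ 1)).toReal) := by
  obtain ⟨hJu, hJl⟩ := MDat.jac hφ D
  have h2 : 2 ≤ Dim.m + 1 := by have := Dim.two_le; omega
  obtain ⟨-, hpos, hint⟩ := integral_eq_of_entropy_eq h2 hφ hN hμ hm heq
    D.t.continuous hJu hJl
  obtain ⟨ψ, h1, h2, h3, -⟩ := exists_psi h2 hφ hN hμ hm heq
    D.t.continuous hJu hJl
  exact ⟨hpos, hint, ψ, h1, h2, h3⟩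

/-- **R21, the final inequality.** -/
theorem const_of_mass [ConnectedSpace M] [MeasurableSpace M] [BorelSpace M] (_hN : NegCurvature g)
    {φ : ℝ → UT g → UT g} (hφ : IsGeoFlow g φ) {μ : Measure M} (hμ : IsRiemVol g μ)
    {m : Measure (UT g)} (hm : IsLiouville g μ m) (D : MDat g ((horFlows g).Φ 0)) {h : ℝ}
    (hh : 0 < h) (R : RDat D h)
    (hF : ∀ p : M, sphAvg g (fun v => Real.exp (R.r v) / D.S v) p ≤
      Real.sqrt ((2 * Dim.m / h) ^ Dim.m) / 2 ^ Dim.m) :
    ∃ κ, ConstCurvature g κ :=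
  ⟨_, H582.const_of_mass Dim.two_le hφ hμ hm ((horFlows g).hor 0) D.ur D.cont D.t_eq D.S_eq hh
    R.coc R.norm fun p => (hF p).trans_eq (H582.sqrt_div_pow hh)⟩

end Vale.Agent.P207.N4.H546
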