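import Vale.Agent.P207.N4.Dim
import Vale.Agent.P207.N4.H607.RieP
import Vale.Agent.P207.N4.H76.Ext

/-!
# P207, line N4: the frame vectors on the cover determine the frame vectors on `M`
-/

open scoped Manifold ContDiff ENNReal Topology
open Bundle MeasureTheory Set Filter

noncomputable section

set_option maxSynthPendingDepth 3
set_option linter.unusedSectionVars false

namespace Vale.Agent.P207.N4.H546

open Vale.Agent.P207.N3 Vale.Agent.P207.N3.H546

variable [Dim]

open Vale.Agent.P255 (RMetric Metric Npc ExpSys expg)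
open Vale.Agent.P207 Vale.Agent.P207.Q Vale.Agent.P207.N4.H465 Vale.Agent.P207.N3.H465 Vale.Agent.P207.N4.H566 Vale.Agent.P207.N3.H566

variable {n : ℕ} {M : Type} [TopologicalSpace M] [ChartedSpace (EV n) M]
  [IsManifold 𝓘(ℝ, EV n) ∞ M] {g : RMetric (EV n) M} [NeZero n] [CompactSpace M] [T2Space M]
  [Nonempty (Fr g)] (h : Npc (mt g)) (m : M)

/-- equal vectors on the cover are equal on `M` -/
theorem link_M {x y : XM h m} (hq : x.q = y.q) {c v : EV n} (hE : EX h m x c = EX h m y v) :
    x.f.pt = y.f.pt ∧ Q.H892.Lf x.f c = Q.H892.Lf y.f v := by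
  have h1 : (sys g h).e m x.q = x.f.pt := PB.e_q x
  have h2 : (sys g h).e m y.q = y.f.pt := PB.e_q y
  refine ⟨by rw [← h1, ← h2, hq], ?_⟩
  rw [H607.EX_eq, H607.EX_eq, hq] at hE
  have h3 := congrArg (H265.Dl h m y.q) hE
  rw [H265.Dl_Dx, H265.Dl_Dx, LfE_apply, LfE_apply] at h3
  exact h3

end Vale.Agent.P207.N4.H546
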