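import Vale.Agent.P207.N4.Dim
import Vale.Agent.P207.N4.H546.Dir
import Vale.Agent.P207.N4.Geo.MDat
import Vale.Agent.P207.N4.H618.MetU0
import Vale.Agent.P207.Q.H892.SphHaar

/-!
# P207, line N4, row R19 (MASS), part (M3): the spherical average in a frame, `DirIn` over `M`
-/

set_option linter.unusedSectionVars false
set_option maxSynthPendingDepth 3

open scoped Manifold ContDiff ENNReal Topology Matrix
open Bundle MeasureTheory Set Filter Metric

noncomputable section

namespace Vale.Agent.P207.N4.H546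

open Vale.Agent.P207.N3 Vale.Agent.P207.N3.H546

variable [Dim]

open Vale.Agent.P255 (RMetric)
open Vale.Agent.P207 Vale.Agent.P207.Q Vale.Agent.P207.Q.H130 Vale.Agent.P207.Q.H892
open Vale.Agent.P207.N4.H76 (pk tl e0 sg)
open Vale.Agent.P207.N4.H722 (GeoIn HessIn)

variable {M : Type} [TopologicalSpace M] [ChartedSpace (EV (Dim.m + 1)) M] [IsManifold 𝓘(ℝ, EV (Dim.m + 1)) ∞ M]
  [CompactSpace M] [T2Space M] {g : RMetric (EV (Dim.m + 1)) M}

/-- the unit vector with the components `v` in the frame `f` -/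
def uv (f : Fr g) (v : E3) (hv : ‖v‖ = 1) : UT g := ⟨⟨f.pt, Lf f v⟩, by
  have h := inner_Lf f v v
  rw [real_inner_self_eq_norm_sq, hv, one_pow] at h
  exact h⟩

/-- a function on the unit vectors, in the frame `f`, as a homogeneous function -/
def GF (a : UT g → ℝ) (f : Fr g) (v : E3) : ℝ := radial g a f.pt (Lf f v)

theorem GF_unit (a : UT g → ℝ) (f : Fr g) (v : E3) (hv : ‖v‖ = 1) : GF a f v = a (uv f v hv) :=
  radial_unit g a f.pt (Lf f v) (by
    have h := inner_Lf f v v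
    rw [real_inner_self_eq_norm_sq, hv, one_pow] at h
    exact h)

theorem GF_smul (a : UT g → ℝ) (f : Fr g) (v : E3) {c : ℝ} (hc : 0 < c) :
    GF a f (c • v) = GF a f v := by
  unfold GF
  rw [map_smul]
  exact radial_pos_smul g a f.pt (Lf f v) hc

theorem measurable_GF {a : UT g → ℝ} (ha : Continuous a) (f : Fr g) : Measurable (GF a f) :=
  (measurable_radial g ha f.pt).comp (Lf f).continuous.measurable

theorem GF_nonneg {a : UT g → ℝ} (ha : ∀ p, 0 ≤ a p) (f : Fr g) (v : E3) : 0 ≤ GF a f v := by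
  unfold GF radial
  split_ifs
  · exact le_rfl
  · exact ha _

theorem exists_GF_le {a : UT g → ℝ} (ha : Continuous a) (f : Fr g) :
    ∃ C, ∀ v, |GF a f v| ≤ C := by
  have := compactSpace_UT g
  obtain ⟨C, hC0, hC⟩ := exists_abs_le ha
  exact ⟨C, fun v => abs_radial_le g hC hC0 f.pt _⟩

theorem Lf_inj (f : Fr g) : Function.Injective (Lf f) := by
  rw [injective_iff_map_eq_zero]
  intro v hv
  have h1 := inner_Lf f v v
  rw [hv, map_zero] at h1
  exact (inner_self_eq_zero (𝕜 := ℝ)).1 h1.symm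

/-- **the spherical average in a frame** -/
theorem sphAvg_eq_GF (a : UT g → ℝ) (f : Fr g) : sphAvg g a f.pt =
    (∫ v in ball (0 : E3) 1, GF a f v) / volume.real (ball (0 : E3) 1) := by
  have h2 : sphAvg g a f.pt = avgB ((innerB g f.pt).bilinearComp (Lf f) (Lf f)) (GF a f) :=
    (avgB_comp (innerB g f.pt) (Lf_inj f) (fun v => radial g a f.pt v)).symm
  have h3 : ballB ((innerB g f.pt).bilinearComp (Lf f) (Lf f)) = Metric.ball (0 : E3) 1 := by
    ext w
    rw [mem_ball_zero_iff]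
    change innerB g f.pt (Lf f w) (Lf f w) < 1 ↔ _
    rw [inner_Lf, real_inner_self_eq_norm_sq]
    constructor
    · intro h
      nlinarith [norm_nonneg w]
    · intro h
      nlinarith [norm_nonneg w]
  rw [h2]
  unfold avgB
  rw [h3]

/-- continuity on the sphere -/
theorem continuousOn_GF {a : UT g → ℝ} (ha : Continuous a) (f : Fr g) :
    ContinuousOn (GF a f) {0}ᶜ := by
  have h1 := continuousOn_radial_self g ha f.pt
  refine h1.comp (Lf f).continuous.continuousOn fun v hv h0 => hv ?_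
  exact Lf_inj f (by rw [map_zero]; exact h0)

theorem tb_ext {p q : M} {w w' : EV (Dim.m + 1)} (h1 : p = q) (h2 : w = w') :
    (⟨p, w⟩ : TangentBundle 𝓘(ℝ, EV (Dim.m + 1)) M) = ⟨q, w'⟩ := by
  subst h1
  subst h2
  rfl

theorem ut_ext {f f' : Fr g} {v : E3} (hv : ‖v‖ = 1) (h1 : f.pt = f'.pt) (h2 : f.e 0 = Lf f' v) :
    f.ut 0 = uv f' v hv := Subtype.ext (tb_ext h1 h2)

theorem cl_det (A : Matrix (Fin Dim.m) (Fin Dim.m) ℝ) : (H618.cl A).det = A.det := by
  have h1 : (H618.cl A).det = LinearMap.det (H618.cl A : E2 →ₗ[ℝ] E2) := rfl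
  rw [h1, ← LinearMap.det_toMatrix (EuclideanSpace.basisFun (Fin Dim.m) ℝ).toBasis]
  congr 1
  ext i j
  rw [LinearMap.toMatrix_apply]
  simp only [OrthonormalBasis.coe_toBasis_repr_apply, EuclideanSpace.basisFun_repr,
    OrthonormalBasis.coe_toBasis, EuclideanSpace.basisFun_apply]
  change H618.cl A (EuclideanSpace.single j 1) i = A i j
  rw [H618.cl_apply]
  simp

/-! ### `DirIn` over `M` -/

variable {Γ X B V : Type} [Group Γ] [MetricSpace X] [ProperSpace X] [MulAction Γ X]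
  [IsIsometricSMul Γ X] [TopologicalSpace B] [CompactSpace B] [T2Space B] [MulAction Γ B]
  [ContinuousConstSMul Γ B]
  [NormedAddCommGroup V] [NormedSpace ℝ V] [FiniteDimensional ℝ V] {L : Leaf Γ X B}

theorem dirE_cont (I : GeoIn L V) (x : X) : Continuous (dirE I x) := by
  have h1 : Continuous fun η : B => fderiv ℝ (I.b η) (I.S.ft x) := by
    have h2 : Continuous fun p : B × V => fderiv ℝ (I.b p.1) p.2 := by
      rw [← continuousOn_univ]
      exact I.b_jc.fderiv.continuousOn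
    exact h2.comp (f := fun η : B => (η, I.S.ft x)) (by fun_prop)
  exact ((toE I x).continuous.comp h1).neg

/-- the change of frames at one point -/
def chg (I : GeoIn L V) {x y : X} (h : I.S.ft x = I.S.ft y) : O3 where
  toLinearEquiv := ((I.EE x).trans (I.EE y).symm).toLinearEquiv
  norm_map' c := by
    have h1 : I.E y (((I.EE x).trans (I.EE y).symm) c) = I.E x c := (I.EE y).apply_symm_apply _
    have h2 := I.G_E y (((I.EE x).trans (I.EE y).symm) c) (((I.EE x).trans (I.EE y).symm) c)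
    have h3 := I.G_E x c c
    rw [h1, ← h, h3, real_inner_self_eq_norm_sq, real_inner_self_eq_norm_sq] at h2
    exact ((pow_left_inj₀ (norm_nonneg _) (norm_nonneg _) two_ne_zero).1 h2).symm

theorem E_chg (I : GeoIn L V) {x y : X} (h : I.S.ft x = I.S.ft y) (c : E3) :
    I.E y (chg I h c) = I.E x c := (I.EE y).apply_symm_apply _

theorem E_chg_symm (I : GeoIn L V) {x y : X} (h : I.S.ft x = I.S.ft y) (c : E3) :
    I.E x ((chg I h).symm c) = I.E y c := by
  rw [← E_chg I h, LinearIsometryEquiv.apply_symm_apply]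

theorem chg_symm_dirE (I : GeoIn L V) {x y : X} (h : I.S.ft x = I.S.ft y) (η : B) :
    (chg I h).symm (dirE I y η) = dirE I x η := by
  apply (I.E_bij x).1
  rw [E_chg_symm, E_dirE, E_dirE, h]

/-- **(DIR) over `M`** -/
def dirIn [MeasurableSpace B] [BorelSpace B] {Φ : ℝ → Fr g → Fr g}
    (hΦ : IsHorFlow g (Pi.single 0 1) Φ) {fr : X → Fr g} (O : Over Φ L fr) (I : GeoIn L V)
    {D : MDat g Φ} {h : ℝ} (R : RDat D h) {A : Area L} {W : Metr L}
    (hU : ∀ x, W.U x = H618.cl (D.U (fr x))) (Hs : HessIn I W)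
    (hs : ∀ x, A.s x 0 = I.r₀ ^ Dim.m * Real.exp (R.r ((fr x).ut 0)))
    (hE : ∀ (x y : X) (v : E3), I.S.ft x = I.S.ft y → I.E x e0 = I.E y v →
      (fr x).pt = (fr y).pt ∧ (fr x).e 0 = Lf (fr y) v)
    {x₀ : X} (hx₀ : ∀ ξ, I.b ξ (I.S.ft x₀) = 0) :
    DirIn L A (GF (fun v => Real.exp (R.r v) / D.S v) (fr x₀)) where
  dr := dirE I x₀
  dr_cont := dirE_cont I x₀
  norm_dr := norm_dirE I x₀
  r₀ := I.r₀
  r₀_pos := I.r₀_pos
  dir := by
    intro v hv
    obtain ⟨x, hx, hxv⟩ := I.vec_surj (I.S.ft x₀) (I.E x₀ v) (by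
      rw [I.G_E, real_inner_self_eq_norm_sq, hv, one_pow])
    have hSdet : (W.U x + W.U (L.flip x)).det = D.S ((fr x).ut 0) := by
      rw [hU, hU, O.flip, ← H618.cl_add, D.S_eq]
      exact cl_det _
    have hpos : 0 < D.S ((fr x).ut 0) := D.S_pos hΦ (fr x)
    have hut : (fr x).ut 0 = uv (fr x₀) v hv := by
      obtain ⟨h1, h2⟩ := hE x x₀ v hx hxv
      exact ut_ext hv h1 h2
    refine ⟨x, chg I hx, W.U x + W.U (L.flip x), ?_, ?_, ?_, ?_, ?_, ?_, ?_⟩
    · apply (I.E_bij x₀).1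
      rw [E_chg, hxv]
    · apply (I.E_bij x₀).1
      rw [E_dirE, ← GeoIn.em_flip, ← hx, ← I.ft_flip, I.vel_eq inv', I.E_flip_e0, neg_neg, hxv]
    · rw [← I.b_lv, hx, hx₀]
    · rw [Leaf.lp, ← I.b_lv, I.ft_flip, hx, hx₀]
    · rw [hSdet]
      exact hpos.ne'
    · have h1 := hasFDerivAt_dirE I Hs x
      refine h1.congr_of_eventuallyEq (Eventually.of_forall fun u => ?_)
      exact chg_symm_dirE I hx _
    · rw [hs, GF_unit _ _ v hv, hSdet, abs_of_pos hpos, ← hut, div_mul_cancel₀ _ hpos.ne']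

end Vale.Agent.P207.N4.H546
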